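import Vale.Agent.P068.H476.Transport
import Vale.Agent.P068.H156.Edmonds

/-!
# P068: packing/covering partitions on finite ground sets, for arbitrary families
-/

namespace Vale.Agent.P068.H476

open Set Matroid

variable {α β γ δ ι : Type*}

/-- the data from which a packing/covering partition is built -/
def Pre (M : ι → Matroid α) (P : Set α) (S I : ι → Set α) : Prop :=
  (∀ i, S i ⊆ P) ∧ (∀ i, Disjoint (I i) P) ∧ (∀ i j, i ≠ j → Disjoint (S i) (S j)) ∧
    (∀ i, P ⊆ (M i).closure (S i)) ∧ (∀ i, (M i).Indep (S i ∪ I i)) ∧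
    (∀ x, x ∉ P → ∃ i, x ∈ I i)

theorem Pre.packingCovering {M : ι → Matroid α} (hM : ∀ i, (M i).E = univ) {P : Set α}
    {S I : ι → Set α} (h : Pre M P S I) : HasPackingCovering univ M := by
  obtain ⟨h1, h2, h3, h4, h5, h6⟩ := h
  refine ⟨P, Pᶜ, S, I, union_compl_self P, disjoint_compl_right, h1,
    fun i => (h2 i).subset_compl_right, h3, fun i => ?_, fun i => ?_, ?_⟩
  · rw [restrict_closure_eq (M i) (h1 i) (by rw [hM]; exact subset_univ _)]
    exact inter_eq_right.2 (h4 i)
  · rw [restrict_dual_dual (M i) (by rw [hM]; exact compl_union_self P) disjoint_compl_left]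
    have hb : (M i).IsBasis (S i) P :=
      ((h5 i).subset subset_union_left).isBasis_of_subset_of_subset_closure (h1 i) (h4 i)
    rw [hb.contract_indep_iff, union_comm]
    exact ⟨h5 i, (h2 i).symm⟩
  · refine subset_antisymm (iUnion_subset fun i => (h2 i).subset_compl_right) fun x hx => ?_
    obtain ⟨i, hi⟩ := h6 x hx
    exact mem_iUnion.2 ⟨i, hi⟩

/-- finite ground set, finitely many matroids -/
theorem exists_pre_finite [Finite α] [Finite ι] (M : ι → Matroid α)
    (hM : ∀ i, (M i).E = univ) : ∃ P S I, Pre M P S I := by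
  let F : Matroid (ι × α) := (freeOn (univ : Set α)).comap Prod.snd
  have hF : F.E = univ := by simp [F]
  have hG : (Matroid.sum' M).E = univ := sum'_ground hM
  obtain ⟨J1, J2, hd, hi1, hi2, hcl⟩ := H156.satisfiesIntersection_of_finite hG hF
  rw [sum'_indep_iff] at hi1
  have hinj : InjOn Prod.snd (J1 ∪ J2) := (comap_indep_iff.1 hi2).2
  have hFcl : F.closure J2 = Prod.snd ⁻¹' (Prod.snd '' J2) := by
    rw [comap_closure_eq, freeOn_closure_eq, inter_univ]
  have hJ1P : ∀ i x, (i, x) ∈ J1 → x ∉ (Prod.snd '' J2 : Set α) := by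
    rintro i x hx ⟨⟨j, y⟩, hy, rfl⟩
    have h1 := hinj (Or.inl hx) (Or.inr hy) rfl
    rw [h1] at hx
    exact Set.disjoint_left.1 hd hx hy
  refine ⟨(Prod.snd '' J2)ᶜ, fun i => Prod.mk i ⁻¹' J1, fun i => Prod.mk i ⁻¹' J2,
    fun i x hx => hJ1P i x hx, fun i => ?_, fun i j hij => ?_, fun i x hx => ?_,
    fun i => hi1 i, fun x hx => ?_⟩
  · rw [Set.disjoint_left]
    intro x hx hx2
    exact hx2 ⟨(i, x), hx, rfl⟩
  · rw [Set.disjoint_left]
    intro x hx hx2
    have h1 := hinj (Or.inl hx) (Or.inl hx2) rfl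
    exact hij (congrArg Prod.fst h1)
  · have h1 : (i, x) ∈ (Matroid.sum' M).closure J1 ∪ F.closure J2 := by
      rw [hcl, hG]
      trivial
    rcases h1 with h1 | h1
    · have hJ1 : (Matroid.sum' M).Indep J1 := by
        rw [sum'_indep_iff]
        intro j
        exact (hi1 j).subset (preimage_mono subset_union_left)
      rw [hJ1.mem_closure_iff'] at h1
      have hJi : (M i).Indep (Prod.mk i ⁻¹' J1) := (sum'_indep_iff.1 hJ1) i
      rw [hJi.mem_closure_iff']
      refine ⟨by rw [hM]; trivial, fun h2 => h1.2 ?_⟩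
      rw [sum'_indep_iff]
      intro j
      by_cases hj : j = i
      · subst hj
        convert h2 using 1
        ext y
        simp
      · have h3 : Prod.mk j ⁻¹' (insert (i, x) J1) = Prod.mk j ⁻¹' J1 := by
          ext y
          simp [hj]
        rw [h3]
        exact (sum'_indep_iff.1 hJ1) j
    · rw [hFcl] at h1
      exact absurd h1 hx
  · rw [mem_compl_iff, not_not] at hx
    obtain ⟨⟨i, y⟩, hy, rfl⟩ := hx
    exact ⟨i, hy⟩

end Vale.Agent.P068.H476
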