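import Mathlib.Combinatorics.Hall.Basic
import Vale.Agent.P068.H476.Finite

/-!
# P068: packing/covering partitions on finite ground sets, arbitrary index sets
-/

namespace Vale.Agent.P068.H476

open Set Matroid

variable {α β γ δ ι : Type*}

/-- an injective choice from infinite sets -/
lemma exists_injective_choice [Finite α] (T : α → Set ι) (hT : ∀ x, (T x).Infinite) :
    ∃ g : α → ι, Function.Injective g ∧ ∀ x, g x ∈ T x := by
  classical
  have := Fintype.ofFinite α
  have h1 : ∀ x, ∃ t : Finset ι, (t : Set ι) ⊆ T x ∧ t.card = Fintype.card α :=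
    fun x => (hT x).exists_subset_card_eq _
  choose t ht hc using h1
  obtain ⟨g, hg, hgt⟩ := (Finset.all_card_le_biUnion_card_iff_exists_injective t).1 (by
    intro s
    rcases s.eq_empty_or_nonempty with rfl | ⟨x, hx⟩
    · simp
    · calc s.card ≤ Fintype.card α := Finset.card_le_univ s
        _ = (t x).card := (hc x).symm
        _ ≤ (s.biUnion t).card := Finset.card_le_card (Finset.subset_biUnion_of_mem t hx))
  exact ⟨g, hg, fun x => ht x (hgt x)⟩

/-- finite ground set, arbitrarily many matroids -/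
theorem exists_pre [Finite α] (M : ι → Matroid α)
    (hM : ∀ i, (M i).E = univ) : ∃ P S I, Pre M P S I := by
  classical
  let C0 : Set α := {x | {i | (M i).Indep {x}}.Infinite}
  let T0 : Set ι := ⋃ x : α, {i | x ∉ C0 ∧ (M i).Indep {x}}
  have hT0 : T0.Finite := by
    refine Set.finite_iUnion fun x => ?_
    by_cases hx : x ∈ C0
    · convert Set.finite_empty using 1
      ext i
      simp [hx]
    · refine (Set.not_infinite.1 hx).subset ?_
      rintro i ⟨-, hi⟩
      exact hi
  have : Finite T0 := hT0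
  obtain ⟨g, hg, hgT⟩ := exists_injective_choice (α := C0) (ι := ι)
    (fun x => {i | (M i).Indep {x.1}} \ T0) (fun x => x.2.sdiff hT0)
  let F : Matroid α := (freeOn C0) ↾ univ
  have hFi : ∀ X : Set α, F.Indep X ↔ X ⊆ C0 := by
    intro X
    simp only [F, restrict_indep_iff, freeOn_indep_iff, subset_univ, and_true]
  have hFE : F.E = univ := rfl
  let M' : Option T0 → Matroid α := fun o => o.elim F (fun i => M i)
  have hM' : ∀ o, (M' o).E = univ := by
    intro o
    rcases o with _ | i
    · exact hFE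
    · exact hM i
  obtain ⟨P, S, I, h1, h2, h3, h4, h5, h6⟩ := exists_pre_finite M' hM'
  have hS0 : P ∩ C0 ⊆ S none := by
    rintro x ⟨hx, hxC⟩
    have h7 : x ∈ F.closure (S none) := h4 none hx
    have h8 : F.Indep (S none ∪ I none) := h5 none
    have h9 : F.Indep (S none) := h8.subset subset_union_left
    rw [h9.mem_closure_iff'] at h7
    refine h7.2 ((hFi _).2 (insert_subset hxC ((hFi _).1 h9)))
  let S' : ι → Set α := fun i => if h : i ∈ T0 then S (some ⟨i, h⟩) else ∅
  let I' : ι → Set α := fun i =>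
    if h : i ∈ T0 then I (some ⟨i, h⟩) else {x | ∃ h : x ∈ C0, g ⟨x, h⟩ = i}
  have hSp : ∀ i (h : i ∈ T0), S' i = S (some ⟨i, h⟩) := fun i h => dif_pos h
  have hSn : ∀ i, i ∉ T0 → S' i = ∅ := fun i h => dif_neg h
  have hIp : ∀ i (h : i ∈ T0), I' i = I (some ⟨i, h⟩) := fun i h => dif_pos h
  have hIn : ∀ i, i ∉ T0 → I' i = {x | ∃ h : x ∈ C0, g ⟨x, h⟩ = i} := fun i h => dif_neg h
  refine ⟨P \ C0, S', I', fun i => ?_, fun i => ?_, fun i j hij => ?_, fun i => ?_,
    fun i => ?_, fun x hx => ?_⟩
  · by_cases hi : i ∈ T0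
    · rw [hSp i hi]
      intro x hx
      refine ⟨h1 _ hx, fun hxC => ?_⟩
      exact Set.disjoint_left.1 (h3 (some ⟨i, hi⟩) none (by simp)) hx
        (hS0 ⟨h1 _ hx, hxC⟩)
    · rw [hSn i hi]
      exact empty_subset _
  · by_cases hi : i ∈ T0
    · rw [hIp i hi]
      exact (h2 _).mono_right sdiff_subset
    · rw [hIn i hi, Set.disjoint_left]
      rintro x ⟨hx, -⟩ hx2
      exact hx2.2 hx
  · by_cases hi : i ∈ T0
    · by_cases hj : j ∈ T0
      · rw [hSp i hi, hSp j hj]
        refine h3 _ _ fun h => hij ?_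
        simpa using h
      · rw [hSn j hj]
        exact disjoint_empty _
    · rw [hSn i hi]
      exact empty_disjoint _
  · by_cases hi : i ∈ T0
    · rw [hSp i hi]
      exact sdiff_subset.trans (h4 (some ⟨i, hi⟩))
    · rw [hSn i hi]
      intro x hx
      rw [(M i).empty_indep.mem_closure_iff']
      refine ⟨by rw [hM]; trivial, fun h => ?_⟩
      exfalso
      refine hi (mem_iUnion.2 ⟨x, hx.2, ?_⟩)
      simpa using h
  · by_cases hi : i ∈ T0
    · rw [hSp i hi, hIp i hi]
      exact h5 (some ⟨i, hi⟩)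
    · rw [hSn i hi, hIn i hi, empty_union]
      by_cases hne : ∃ x : C0, g x = i
      · obtain ⟨x, rfl⟩ := hne
        refine (hgT x).1.subset ?_
        rintro y ⟨hy, hxy⟩
        have := hg hxy
        rw [mem_singleton_iff, ← this]
      · have : {x | ∃ h : x ∈ C0, g ⟨x, h⟩ = i} = ∅ := by
          refine eq_empty_of_forall_notMem ?_
          rintro x ⟨hx, hxi⟩
          exact hne ⟨⟨x, hx⟩, hxi⟩
        rw [this]
        exact (M i).empty_indep
  · by_cases hxC : x ∈ C0
    · refine ⟨g ⟨x, hxC⟩, ?_⟩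
      rw [hIn _ (hgT ⟨x, hxC⟩).2]
      exact ⟨hxC, rfl⟩
    · obtain ⟨o, ho⟩ := h6 x fun hxP => hx ⟨hxP, hxC⟩
      rcases o with _ | ⟨i, hi⟩
      · exfalso
        exact hxC ((hFi _).1 (h5 none) (Or.inr ho))
      · refine ⟨i, ?_⟩
        rw [hIp i hi]
        exact ho

theorem packingCovering_of_finite [Finite α] (M : ι → Matroid α)
    (hM : ∀ i, (M i).E = univ) : HasPackingCovering univ M := by
  obtain ⟨P, S, I, h⟩ := exists_pre M hM
  exact h.packingCovering hM

theorem packingCovering_of_subsingleton [Subsingleton ι] (M : ι → Matroid α) :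
    HasPackingCovering univ M := by
  refine ⟨univ, ∅, fun _ => univ, fun _ => ∅, union_empty _, disjoint_empty _,
    fun _ => subset_rfl, fun _ => subset_rfl, fun i j hij => absurd (Subsingleton.elim i j) hij,
    fun i => ?_, fun i => ?_, iUnion_empty⟩
  · have h1 := ((M i) ↾ univ).closure_ground
    exact h1
  · exact (((M i)✶ ↾ ∅)✶).empty_indep

end Vale.Agent.P068.H476
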