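import Vale.Agent.P068.H476.Dual

/-!
# P068: the matroid of the counterexample is self-dual, and the two matroids are exchanged by an
involution
-/

namespace Vale.Agent.P068.H476

open Set Matroid

/-- the reflection -/
def refl0 : Equiv.Perm (ℤ × (ℕ ⊕ ℕ)) where
  toFun p := (-1 - p.1, p.2.swap)
  invFun p := (-1 - p.1, p.2.swap)
  left_inv := by rintro ⟨m, x⟩; simp
  right_inv := by rintro ⟨m, x⟩; simp

lemma refl0_apply (p : ℤ × (ℕ ⊕ ℕ)) : refl0 p = (-1 - p.1, p.2.swap) := rfl

lemma refl0_sq : refl0 * refl0 = 1 := by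
  ext1 ⟨m, x⟩
  simp [refl0_apply]

/-- the involution that exchanges the two matroids of the pair -/
def inv0 : Equiv.Perm (ℤ × (ℕ ⊕ ℕ)) := refl0.trans shiftEquiv

lemma inv0_sq : inv0 * inv0 = 1 := by
  ext1 ⟨m, x⟩
  change shiftEquiv (refl0 (shiftEquiv (refl0 (m, x)))) = (m, x)
  rcases x with n | n
  · simp [refl0_apply, shiftEquiv]
    omega
  · simp [refl0_apply, shiftEquiv]

variable {K : Matroid (ℕ ⊕ ℕ)}

lemma block_refl (hK : K.E = univ) (m : ℤ) (D : Set (ℕ ⊕ ℕ)) :
    (blockMat K (-1 - m)).IsBase (Sum.swap ⁻¹' D) ↔ (blockMat K m).IsBase Dᶜ := by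
  by_cases hm : 0 ≤ m
  · rw [blockMat, blockMat, if_pos hm, if_neg (by omega), mapEquiv_isBase_iff,
      ← dual_base_iff hK, Equiv.image_symm_eq_preimage]
    have : (Equiv.sumComm ℕ ℕ) ⁻¹' (Sum.swap ⁻¹' D) = D := by
      ext x
      simp
    rw [this]
  · rw [blockMat, blockMat, if_neg hm, if_pos (by omega), mapEquiv_isBase_iff,
      dual_base_iff hK, Equiv.image_symm_eq_preimage]
    have : ((Equiv.sumComm ℕ ℕ) ⁻¹' Dᶜ)ᶜ = Sum.swap ⁻¹' D := by
      ext x
      simp
    rw [this]

theorem netM_dual (hK : K.E = univ) : (netM K)✶ = (netM K).mapEquiv refl0 := by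
  refine ext_isBase ?_ fun X _ => ?_
  · rw [dual_ground, netM_ground hK, mapEquiv_ground (netM_ground hK)]
  · rw [dual_base_iff (netM_ground hK), mapEquiv_isBase_iff, netM, sum'_isBase_iff,
      sum'_isBase_iff]
    have key : ∀ m : ℤ, Prod.mk (-1 - m) ⁻¹' (refl0.symm '' X) =
        Sum.swap ⁻¹' (Prod.mk m ⁻¹' X) := by
      intro m
      ext x
      rw [Equiv.image_symm_eq_preimage]
      simp [refl0_apply]
    constructor
    · intro h m
      have h1 := (block_refl hK (-1 - m) (Prod.mk (-1 - m) ⁻¹' X)).2 (h (-1 - m))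
      rw [← key] at h1
      have h2 : -1 - (-1 - m) = m := by omega
      rwa [h2] at h1
    · intro h m
      have h1 := h (-1 - m)
      rw [key, block_refl hK] at h1
      exact h1

theorem netN_eq (hK : K.E = univ) : netN K = (netM K).mapEquiv inv0 := by
  rw [netN, ← sum'_dual (fun m => blockMat_ground hK m), inv0, ← mapEquiv_trans,
    ← netM_dual hK]
  rfl

/-- the core: a matroid on a countable set, its dual is its image under an involution, and it does
not satisfy intersection with its image under another involution -/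
theorem exists_core : ∃ M : Matroid (ℤ × (ℕ ⊕ ℕ)), M.E = univ ∧ M✶ = M.mapEquiv refl0 ∧
    ¬ SatisfiesIntersection M (M.mapEquiv inv0) := by
  obtain ⟨K, big, rk, hR⟩ := exists_ranked_zfc
  refine ⟨netM K, netM_ground hR.ground, netM_dual hR.ground, ?_⟩
  rw [← netN_eq hR.ground]
  exact not_intersects hR

end Vale.Agent.P068.H476
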