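import Vale.Agent.P068.Bdl.B1

/-!
# P068: duals and images of sums
-/

namespace Vale.Agent.P068.H476

open Set Matroid

variable {α β γ δ ι : Type*}

lemma dual_base_iff {M : Matroid α} (hM : M.E = univ) (B : Set α) :
    M✶.IsBase B ↔ M.IsBase Bᶜ := by
  rw [dual_isBase_iff', hM, compl_eq_univ_sdiff]
  simp

lemma mapEquiv_ground {M : Matroid α} (hM : M.E = univ) (e : α ≃ β) :
    (M.mapEquiv e).E = univ := by
  rw [mapEquiv_ground_eq, hM, image_univ]
  exact e.surjective.range_eq

lemma dual_univ {M : Matroid α} (hM : M.E = univ) : M✶.E = univ := by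
  rw [dual_ground, hM]

lemma sum'_ground {B : ι → Matroid β} (hB : ∀ m, (B m).E = univ) :
    (Matroid.sum' B).E = univ := by
  rw [Matroid.sum'_ground_eq]
  ext ⟨m, x⟩
  simp [hB]

lemma sum_univ {A : Matroid α} {B : Matroid β} (hA : A.E = univ) (hB : B.E = univ) :
    (A.sum B).E = univ := by
  rw [sum_ground, hA, hB]
  ext x
  rcases x with x | x <;> simp

theorem sum'_dual {B : ι → Matroid β} (hB : ∀ m, (B m).E = univ) :
    (Matroid.sum' B)✶ = Matroid.sum' (fun m => (B m)✶) := by
  refine ext_isBase ?_ fun X _ => ?_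
  · rw [dual_ground, sum'_ground hB, sum'_ground fun m => dual_univ (hB m)]
  · rw [dual_base_iff (sum'_ground hB), sum'_isBase_iff, sum'_isBase_iff]
    refine forall_congr' fun m => ?_
    rw [dual_base_iff (hB m)]
    rfl

theorem sum_dual {A : Matroid α} {B : Matroid β} (hA : A.E = univ) (hB : B.E = univ) :
    (A.sum B)✶ = A✶.sum B✶ := by
  refine ext_isBase ?_ fun X _ => ?_
  · rw [dual_ground, sum_univ hA hB, sum_univ (dual_univ hA) (dual_univ hB)]
  · rw [dual_base_iff (sum_univ hA hB), sum_isBase_iff, sum_isBase_iff, dual_base_iff hA,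
      dual_base_iff hB]
    rfl

theorem mapEquiv_dual (M : Matroid α) (e : α ≃ β) :
    (M.mapEquiv e)✶ = M✶.mapEquiv e := by
  rw [mapEquiv_eq_map, mapEquiv_eq_map, map_dual]

theorem mapEquiv_trans (M : Matroid α) (e : α ≃ β) (f : β ≃ γ) :
    (M.mapEquiv e).mapEquiv f = M.mapEquiv (e.trans f) := by
  refine ext_indep ?_ fun X _ => ?_
  · rw [mapEquiv_ground_eq, mapEquiv_ground_eq, mapEquiv_ground_eq, ← image_comp]
    rfl
  · rw [mapEquiv_indep_iff, mapEquiv_indep_iff, mapEquiv_indep_iff, ← image_comp]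
    rfl

theorem mapEquiv_refl (M : Matroid α) : M.mapEquiv (Equiv.refl α) = M := by
  refine ext_indep ?_ fun X _ => ?_
  · rw [mapEquiv_ground_eq]
    exact image_id _
  · rw [mapEquiv_indep_iff]
    change M.Indep (id '' X) ↔ _
    rw [image_id]

theorem sum_mapEquiv {α' β' : Type*} (A : Matroid α) (B : Matroid β) (e : α ≃ α') (f : β ≃ β') :
    (A.sum B).mapEquiv (Equiv.sumCongr e f) = (A.mapEquiv e).sum (B.mapEquiv f) := by
  refine ext_indep ?_ fun X _ => ?_
  · rw [mapEquiv_ground_eq, sum_ground, sum_ground, mapEquiv_ground_eq, mapEquiv_ground_eq,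
      image_union, ← image_comp, ← image_comp, ← image_comp, ← image_comp]
    rfl
  · rw [mapEquiv_indep_iff, sum_indep_iff, sum_indep_iff, mapEquiv_indep_iff,
      mapEquiv_indep_iff, Equiv.image_symm_eq_preimage, Equiv.image_symm_eq_preimage,
      Equiv.image_symm_eq_preimage]
    rfl

theorem sum_comm_map (A : Matroid α) (B : Matroid β) :
    (A.sum B).mapEquiv (Equiv.sumComm α β) = B.sum A := by
  refine ext_indep ?_ fun X _ => ?_
  · rw [mapEquiv_ground_eq, sum_ground, sum_ground, image_union, ← image_comp, ← image_comp,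
      union_comm]
    rfl
  · rw [mapEquiv_indep_iff, sum_indep_iff, sum_indep_iff, Equiv.image_symm_eq_preimage, and_comm]
    rfl

/-- closure in a direct sum -/
theorem mem_closure_of_sum {A : Matroid α} {B : Matroid β} {X : Set (α ⊕ β)} {x : α}
    (h : Sum.inl x ∈ (A.sum B).closure X) : x ∈ A.closure (Sum.inl ⁻¹' X) := by
  have hx : Sum.inl x ∈ (A.sum B).E := mem_ground_of_mem_closure h
  have hxA : x ∈ A.E := by
    rw [sum_ground] at hx
    simpa using hx
  obtain ⟨J, hJ⟩ := (A.sum B).exists_isBasis (X ∩ (A.sum B).E) inter_subset_right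
  rw [← closure_inter_ground, ← hJ.closure_eq_closure, hJ.indep.mem_closure_iff'] at h
  rw [sum_isBasis_iff] at hJ
  have h1 : Sum.inl ⁻¹' (X ∩ (A.sum B).E) = Sum.inl ⁻¹' X ∩ A.E := by
    rw [sum_ground]
    ext y
    simp
  rw [h1] at hJ
  rw [← closure_inter_ground, ← hJ.1.closure_eq_closure, hJ.1.indep.mem_closure_iff']
  refine ⟨hxA, fun hi => h.2 ?_⟩
  rw [sum_indep_iff]
  constructor
  · convert hi using 1
    ext y
    simp
  · convert hJ.2.indep using 1
    ext y
    simp

end Vale.Agent.P068.H476
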