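import Vale.Agent.P068.H476.Core
import Vale.Agent.P068.H476.Arb

/-!
# P068: self-dual isomorphic counterexamples, and the dichotomy
-/

namespace Vale.Agent.P068.H476

open Set Matroid
open scoped Cardinal

universe u

variable {α β γ δ ι : Type*}

/-- conjugation of a permutation -/
def cj (e : α ≃ β) (t : Equiv.Perm α) : Equiv.Perm β := e.symm.trans (t.trans e)

lemma cj_sq (e : α ≃ β) {t : Equiv.Perm α} (ht : t * t = 1) : cj e t * cj e t = 1 := by
  ext1 x
  have h1 : t (t (e.symm x)) = e.symm x := by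
    rw [← Equiv.Perm.mul_apply, ht]
    rfl
  simp [cj, h1]

lemma mapEquiv_cj (M : Matroid α) (e : α ≃ β) (t : Equiv.Perm α) :
    (M.mapEquiv e).mapEquiv (cj e t) = (M.mapEquiv t).mapEquiv e := by
  rw [mapEquiv_trans, mapEquiv_trans]
  congr 1
  ext1 x
  simp [cj]

/-- loops and coloops on two copies of `α` -/
def lc (α : Type*) : Matroid (α ⊕ α) := (loopyOn (univ : Set α)).sum (freeOn (univ : Set α))

lemma lc_ground : (lc α).E = univ := sum_univ rfl rfl

lemma lc_dual : (lc α)✶ = (lc α).mapEquiv (Equiv.sumComm α α) := by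
  rw [lc, sum_dual', sum_comm_map, loopyOn_dual_eq, freeOn_dual_eq]

/-- the big matroid -/
def big (M : Matroid γ) (α : Type*) : Matroid (γ ⊕ (α ⊕ α)) := M.sum (lc α)

lemma big_ground {M : Matroid γ} (hM : M.E = univ) : (big M α).E = univ :=
  sum_univ hM lc_ground

lemma big_dual {M : Matroid γ} {t : Equiv.Perm γ} (h : M✶ = M.mapEquiv t) :
    (big M α)✶ = (big M α).mapEquiv (Equiv.sumCongr t (Equiv.sumComm α α)) := by
  rw [big, sum_mapEquiv, sum_dual', h, lc_dual]

lemma big_map (M : Matroid γ) (t : Equiv.Perm γ) :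
    (big M α).mapEquiv (Equiv.sumCongr t (Equiv.refl (α ⊕ α))) = big (M.mapEquiv t) α := by
  rw [big, sum_mapEquiv, mapEquiv_refl, big]

/-- the permutation that moves the core into the loops -/
def away (e : γ ⊕ α ≃ α) : Equiv.Perm (γ ⊕ (α ⊕ α)) where
  toFun x := Sum.elim (fun g => Sum.inr (Sum.inl (e (Sum.inl g))))
    (Sum.elim (fun a => Sum.elim (fun g => Sum.inl g) (fun _ => Sum.inr (Sum.inl a)) (e.symm a))
      (fun a => Sum.inr (Sum.inr a))) x
  invFun x := Sum.elim (fun g => Sum.inr (Sum.inl (e (Sum.inl g))))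
    (Sum.elim (fun a => Sum.elim (fun g => Sum.inl g) (fun _ => Sum.inr (Sum.inl a)) (e.symm a))
      (fun a => Sum.inr (Sum.inr a))) x
  left_inv := by
    rintro (g | a | a)
    · simp
    · rcases h : e.symm a with g | b
      · have : e (Sum.inl g) = a := by rw [← h, e.apply_symm_apply]
        simp [h, this]
      · simp [h]
    · simp
  right_inv := by
    rintro (g | a | a)
    · simp
    · rcases h : e.symm a with g | b
      · have : e (Sum.inl g) = a := by rw [← h, e.apply_symm_apply]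
        simp [h, this]
      · simp [h]
    · simp

lemma away_loop (M : Matroid γ) (e : γ ⊕ α ≃ α) (g : γ) :
    ¬ ((big M α).mapEquiv (away e)).Indep {Sum.inl g} := by
  rw [mapEquiv_indep_iff, image_singleton, big, lc, sum_indep_iff, sum_indep_iff]
  rintro ⟨-, h, -⟩
  rw [loopyOn_indep_iff] at h
  have h1 : e (Sum.inl g) ∈ (∅ : Set α) := by
    rw [← h]
    change Sum.inr (Sum.inl (e (Sum.inl g))) ∈ ({(away e).symm (Sum.inl g)} : Set _)
    rfl
  exact h1

lemma equiv1 (α : Type u) [Infinite α] : Nonempty ((ℤ × (ℕ ⊕ ℕ)) ⊕ α ≃ α) := by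
  rw [← Cardinal.eq, Cardinal.mk_sum, Cardinal.mk_eq_aleph0, Cardinal.lift_aleph0,
    Cardinal.lift_uzero]
  exact Cardinal.add_eq_right (Cardinal.aleph0_le_mk α) (Cardinal.aleph0_le_mk α)

lemma equiv2 (α : Type u) [Infinite α] : Nonempty (α ⊕ α ≃ α) := by
  rw [← Cardinal.eq, Cardinal.mk_sum, Cardinal.lift_id]
  exact Cardinal.add_eq_right (Cardinal.aleph0_le_mk α) le_rfl

lemma equiv3 (α : Type u) [Infinite α] : Nonempty ((ℤ × (ℕ ⊕ ℕ)) ⊕ (α ⊕ α) ≃ α) := by
  obtain ⟨e1⟩ := equiv1 α
  obtain ⟨e2⟩ := equiv2 α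
  exact ⟨(Equiv.sumCongr (Equiv.refl _) e2).trans e1⟩

/-- a self-dual matroid and an involution, on every infinite set; and a third isomorphic matroid
in which the elements of the core are loops -/
theorem exists_big (α : Type u) [Infinite α] : ∃ (M : Matroid α) (t r a : Equiv.Perm α),
    M.E = univ ∧ t * t = 1 ∧ r * r = 1 ∧ M✶ = M.mapEquiv t ∧
    ¬ SatisfiesIntersection M (M.mapEquiv r) ∧
    ¬ HasPackingCovering univ (fun b : Bool => if b then M else (M.mapEquiv r)✶) ∧
    ∀ {ι : Type*} (N : ι → Matroid α) (i j : ι), i ≠ j → N i = M → N j = (M.mapEquiv r)✶ →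
      (∀ k, k ≠ i → k ≠ j → N k = M.mapEquiv a) → ¬ HasPackingCovering univ N := by
  obtain ⟨M0, hE, hdual, hint⟩ := exists_core
  obtain ⟨e⟩ := equiv3 α
  obtain ⟨e1⟩ := equiv1 α
  have hB : (big M0 α).E = univ := big_ground hE
  have hMr : ((big M0 α).mapEquiv e).mapEquiv
      (cj e (Equiv.sumCongr inv0 (Equiv.refl (α ⊕ α)))) =
      (big (M0.mapEquiv inv0) α).mapEquiv e := by
    rw [mapEquiv_cj, big_map]
  have hnot : ¬ SatisfiesIntersection ((big M0 α).mapEquiv e)
      (((big M0 α).mapEquiv e).mapEquiv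
        (cj e (Equiv.sumCongr inv0 (Equiv.refl (α ⊕ α))))) := by
    rw [hMr]
    intro h
    have h1 := satisfiesIntersection_of_mapEquiv e h
    exact hint (satisfiesIntersection_of_sum hE lc_ground h1)
  have hME : ((big M0 α).mapEquiv e).E = univ := mapEquiv_ground hB e
  refine ⟨(big M0 α).mapEquiv e, cj e (Equiv.sumCongr refl0 (Equiv.sumComm α α)),
    cj e (Equiv.sumCongr inv0 (Equiv.refl (α ⊕ α))), cj e (away e1), hME, ?_, ?_, ?_, hnot,
    fun h => ?_, fun {ι} N i j hij hi hj hk h => ?_⟩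
  · apply cj_sq
    ext1 x
    rcases x with x | x | x
    · have := congrArg (fun f : Equiv.Perm (ℤ × (ℕ ⊕ ℕ)) => f x) refl0_sq
      simpa using this
    · simp
    · simp
  · apply cj_sq
    ext1 x
    rcases x with x | x | x
    · have := congrArg (fun f : Equiv.Perm (ℤ × (ℕ ⊕ ℕ)) => f x) inv0_sq
      simpa using this
    · simp
    · simp
  · rw [mapEquiv_dual, mapEquiv_cj, big_dual hdual]
  · refine hnot (satisfiesIntersection_of_packingCovering _ _ ?_ ?_)
    · rw [hME, mapEquiv_ground hME]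
    · rw [hME]
      exact h
  · -- move to the sum type
    have h1 : HasPackingCovering univ (fun k => (N k).mapEquiv e.symm) := by
      refine hasPackingCovering_of_mapEquiv e ?_
      have : (fun k => ((N k).mapEquiv e.symm).mapEquiv e) = N := by
        funext k
        rw [mapEquiv_trans, e.symm_trans_self, mapEquiv_refl]
      rw [this]
      exact h
    have hback : ∀ L : Matroid ((ℤ × (ℕ ⊕ ℕ)) ⊕ (α ⊕ α)),
        (L.mapEquiv e).mapEquiv e.symm = L := by
      intro L
      rw [mapEquiv_trans, e.self_trans_symm, mapEquiv_refl]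
    have h2 := family_core (A := M0) (A' := (M0.mapEquiv inv0)✶) (B := lc α) (B' := (lc α)✶)
      ?_ hij ?_ ?_ ?_ h1
    · refine hint (satisfiesIntersection_of_packingCovering _ _ ?_ ?_)
      · rw [hE, mapEquiv_ground hE]
      · rw [hE]
        exact h2
    · intro k
      refine mapEquiv_ground ?_ _
      by_cases hki : k = i
      · rw [hki, hi]
        exact hME
      by_cases hkj : k = j
      · rw [hkj, hj]
        exact dual_univ (mapEquiv_ground hME _)
      · rw [hk k hki hkj]
        exact mapEquiv_ground hME _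
    · change (N i).mapEquiv e.symm = _
      rw [hi, hback]
      rfl
    · change (N j).mapEquiv e.symm = _
      rw [hj, hMr, mapEquiv_dual, hback, big, sum_dual']
    · intro k hki hkj x
      change ¬ ((N k).mapEquiv e.symm).Indep _
      rw [hk k hki hkj, mapEquiv_cj, hback]
      exact away_loop M0 e1 x

/-- pairwise isomorphic, self-dual, for every index set with two elements -/
theorem exists_family (α : Type u) [Infinite α] (ι : Type*) [Nontrivial ι] :
    ∃ M : ι → Matroid α, (∀ i, (M i).E = univ) ∧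
      (∀ i j, ∃ s : Equiv.Perm α, M j = (M i).mapEquiv s) ∧
      (∀ i, ∃ s : Equiv.Perm α, (M i)✶ = (M i).mapEquiv s) ∧ ¬ HasPackingCovering univ M := by
  classical
  obtain ⟨M, t, r, a, hE, ht, hr, hd, -, -, hN⟩ := exists_big α
  obtain ⟨i0, i1, hi⟩ := exists_pair_ne ι
  let N : ι → Matroid α := fun k =>
    if k = i0 then M else if k = i1 then (M.mapEquiv r)✶ else M.mapEquiv a
  have hiso : ∀ k, ∃ s : Equiv.Perm α, N k = M.mapEquiv s := by
    intro k
    by_cases h0 : k = i0
    · exact ⟨Equiv.refl α, by simp [N, h0, mapEquiv_refl]⟩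
    by_cases h1 : k = i1
    · refine ⟨t.trans r, ?_⟩
      have : N k = (M.mapEquiv r)✶ := by simp [N, h1, hi.symm]
      rw [this, mapEquiv_dual, hd, mapEquiv_trans]
    · exact ⟨a, by simp [N, h0, h1]⟩
  refine ⟨N, fun k => ?_, fun i j => ?_, fun k => ?_, hN N i0 i1 hi (by simp [N])
    (by simp [N, hi.symm]) (fun k h0 h1 => by simp [N, h0, h1])⟩
  · obtain ⟨s, hs⟩ := hiso k
    rw [hs]
    exact mapEquiv_ground hE s
  · obtain ⟨s, hs⟩ := hiso i
    obtain ⟨s', hs'⟩ := hiso j
    refine ⟨s.symm.trans s', ?_⟩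
    rw [hs, hs', mapEquiv_trans, ← Equiv.trans_assoc, Equiv.self_trans_symm, Equiv.refl_trans]
  · obtain ⟨s, hs⟩ := hiso k
    refine ⟨cj s t, ?_⟩
    rw [hs, mapEquiv_cj, mapEquiv_dual, hd]

/-- the exact dichotomy -/
theorem packingCovering_iff (α : Type u) (ι : Type*) :
    (∀ M : ι → Matroid α, (∀ i, (M i).E = univ) → HasPackingCovering univ M) ↔
      Finite α ∨ Subsingleton ι := by
  constructor
  · intro h
    by_contra hcon
    rw [not_or, not_finite_iff_infinite, not_subsingleton_iff_nontrivial] at hcon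
    obtain ⟨h1, h2⟩ := hcon
    obtain ⟨M, hE, -, -, hM⟩ := exists_family α ι
    exact hM (h M hE)
  · rintro (h | h) M hM
    · exact packingCovering_of_finite M hM
    · exact packingCovering_of_subsingleton M

end Vale.Agent.P068.H476
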