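import Vale.Agent.P068.H476.Dual

/-!
# P068: packing/covering partitions under bijections and direct sums
-/

namespace Vale.Agent.P068.H476

open Set Matroid

variable {α β γ δ ι : Type*}

theorem restrict_mapEquiv (M : Matroid α) (e : α ≃ β) (P : Set β) :
    (M.mapEquiv e) ↾ P = (M ↾ (e ⁻¹' P)).mapEquiv e := by
  refine ext_indep ?_ fun X _ => ?_
  · rw [restrict_ground_eq, mapEquiv_ground_eq, restrict_ground_eq,
      image_preimage_eq _ e.surjective]
  · rw [restrict_indep_iff, mapEquiv_indep_iff, mapEquiv_indep_iff, restrict_indep_iff,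
      Equiv.image_symm_eq_preimage]
    refine and_congr_right fun _ => ?_
    exact (e.preimage_subset X P).symm

theorem closure_mapEquiv (M : Matroid α) (e : α ≃ β) (X : Set β) :
    (M.mapEquiv e).closure X = e '' M.closure (e ⁻¹' X) := by
  rw [mapEquiv_eq_map, map_closure_eq]

theorem hasPackingCovering_of_mapEquiv {M : ι → Matroid α} (e : α ≃ β)
    (h : HasPackingCovering univ (fun i => (M i).mapEquiv e)) : HasPackingCovering univ M := by
  obtain ⟨P, C, S, I, hPC, hd, hSP, hIC, hSd, hcl, hind, hU⟩ := h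
  refine ⟨e ⁻¹' P, e ⁻¹' C, fun i => e ⁻¹' S i, fun i => e ⁻¹' I i, ?_, hd.preimage e,
    fun i => preimage_mono (hSP i), fun i => preimage_mono (hIC i),
    fun i j hij => (hSd i j hij).preimage e, fun i => ?_, fun i => ?_, ?_⟩
  · rw [← preimage_union, hPC, preimage_univ]
  · have h1 := hcl i
    rw [restrict_mapEquiv, closure_mapEquiv] at h1
    have h2 := congrArg (fun Z => e ⁻¹' Z) h1
    simp only [preimage_image_eq _ e.injective] at h2
    exact h2
  · have h1 := hind i
    rw [mapEquiv_dual, restrict_mapEquiv, mapEquiv_dual, mapEquiv_indep_iff,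
      Equiv.image_symm_eq_preimage] at h1
    exact h1
  · rw [← preimage_iUnion, hU]

theorem sum_dual' (A : Matroid α) (B : Matroid β) : (A.sum B)✶ = A✶.sum B✶ := by
  refine ext_isBase ?_ fun X _ => ?_
  · rw [dual_ground, sum_ground, sum_ground, dual_ground, dual_ground]
  · rw [dual_isBase_iff', sum_isBase_iff, sum_isBase_iff, dual_isBase_iff', dual_isBase_iff',
      sum_ground]
    have h1 : Sum.inl ⁻¹' ((Sum.inl '' A.E ∪ Sum.inr '' B.E) \ X) = A.E \ Sum.inl ⁻¹' X := by
      ext x
      simp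
    have h2 : Sum.inr ⁻¹' ((Sum.inl '' A.E ∪ Sum.inr '' B.E) \ X) = B.E \ Sum.inr ⁻¹' X := by
      ext x
      simp
    have h3 : X ⊆ Sum.inl '' A.E ∪ Sum.inr '' B.E ↔
        Sum.inl ⁻¹' X ⊆ A.E ∧ Sum.inr ⁻¹' X ⊆ B.E := by
      constructor
      · intro h
        refine ⟨fun x hx => ?_, fun x hx => ?_⟩
        · simpa using h hx
        · simpa using h hx
      · rintro ⟨h4, h5⟩ x hx
        rcases x with x | x
        · exact Or.inl ⟨x, h4 hx, rfl⟩
        · exact Or.inr ⟨x, h5 hx, rfl⟩
    rw [h1, h2, h3]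
    tauto

theorem sum_restrict (A : Matroid α) (B : Matroid β) (P : Set (α ⊕ β)) :
    (A.sum B) ↾ P = (A ↾ (Sum.inl ⁻¹' P)).sum (B ↾ (Sum.inr ⁻¹' P)) := by
  refine ext_indep ?_ fun X _ => ?_
  · rw [restrict_ground_eq, sum_ground, restrict_ground_eq, restrict_ground_eq]
    ext x
    rcases x with x | x <;> simp
  · rw [restrict_indep_iff, sum_indep_iff, sum_indep_iff, restrict_indep_iff,
      restrict_indep_iff]
    have h3 : X ⊆ P ↔ Sum.inl ⁻¹' X ⊆ Sum.inl ⁻¹' P ∧ Sum.inr ⁻¹' X ⊆ Sum.inr ⁻¹' P := by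
      constructor
      · intro h
        exact ⟨preimage_mono h, preimage_mono h⟩
      · rintro ⟨h4, h5⟩ x hx
        rcases x with x | x
        · exact h4 hx
        · exact h5 hx
    rw [h3]
    tauto

/-- A set independent in a contraction is independent. -/
theorem indep_of_contract {M : Matroid α} (hM : M.E = univ) {P C I : Set α}
    (hPC : P ∪ C = univ) (hd : Disjoint P C) (h : ((M✶ ↾ C)✶).Indep I) : M.Indep I := by
  rw [restrict_dual_dual M (by rw [union_comm, hPC, hM]) hd.symm] at h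
  exact h.of_contract

/-- Restricting a packing/covering partition of a family to a common direct summand. -/
theorem family_core {M : ι → Matroid (α ⊕ β)} (hM : ∀ i, (M i).E = univ) {i0 i1 : ι}
    (hi : i0 ≠ i1) {A A' : Matroid α} {B B' : Matroid β} (h0 : M i0 = A.sum B)
    (h1 : M i1 = A'.sum B')
    (hl : ∀ i, i ≠ i0 → i ≠ i1 → ∀ x : α, ¬ (M i).Indep {Sum.inl x})
    (h : HasPackingCovering univ M) :
    HasPackingCovering univ (fun b : Bool => if b then A else A') := by
  obtain ⟨P, C, S, I, hPC, hd, hSP, hIC, hSd, hcl, hind, hU⟩ := h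
  let k : Bool → ι := fun b => if b then i0 else i1
  have hk : ∀ b c : Bool, b ≠ c → k b ≠ k c := by
    intro b c hbc
    cases b <;> cases c
    · exact absurd rfl hbc
    · exact hi.symm
    · exact hi
    · exact absurd rfl hbc
  have hMk : ∀ b : Bool, ∃ L : Matroid β, M (k b) = (if b then A else A').sum L := by
    intro b
    cases b
    · exact ⟨B', h1⟩
    · exact ⟨B, h0⟩
  refine ⟨Sum.inl ⁻¹' P, Sum.inl ⁻¹' C, fun b => Sum.inl ⁻¹' S (k b),
    fun b => Sum.inl ⁻¹' I (k b), ?_, hd.preimage _, fun b => preimage_mono (hSP _),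
    fun b => preimage_mono (hIC _), fun b c hbc => (hSd _ _ (hk b c hbc)).preimage _,
    fun b => ?_, fun b => ?_, ?_⟩
  · rw [← preimage_union, hPC, preimage_univ]
  · obtain ⟨L, hL⟩ := hMk b
    have h2 := hcl (k b)
    rw [hL, sum_restrict] at h2
    refine subset_antisymm (closure_subset_ground _ _) fun x hx => ?_
    refine mem_closure_of_sum (B := L ↾ (Sum.inr ⁻¹' P)) ?_
    rw [h2]
    exact hx
  · obtain ⟨L, hL⟩ := hMk b
    have h2 := hind (k b)
    rw [hL, sum_dual', sum_restrict, sum_dual', sum_indep_iff] at h2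
    exact h2.1
  · refine subset_antisymm (iUnion_subset fun b => preimage_mono (hIC _)) fun x hx => ?_
    have h2 : Sum.inl x ∈ ⋃ i, I i := by
      rw [hU]
      exact hx
    obtain ⟨i, hxi⟩ := mem_iUnion.1 h2
    by_cases hi0 : i = i0
    · subst hi0
      exact mem_iUnion.2 ⟨true, hxi⟩
    by_cases hi1 : i = i1
    · subst hi1
      exact mem_iUnion.2 ⟨false, hxi⟩
    · exfalso
      refine hl i hi0 hi1 x ?_
      exact (indep_of_contract (hM i) hPC hd (hind i)).subset (singleton_subset_iff.2 hxi)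

/-- intersection for direct sums -/
theorem satisfiesIntersection_of_sum {A A' : Matroid α} {B B' : Matroid β} (hA : A.E = univ)
    (hB : B.E = univ)
    (h : SatisfiesIntersection (A.sum B) (A'.sum B')) : SatisfiesIntersection A A' := by
  obtain ⟨JM, JN, hd, h1, h2, hcl⟩ := h
  rw [sum_indep_iff] at h1 h2
  refine ⟨Sum.inl ⁻¹' JM, Sum.inl ⁻¹' JN, hd.preimage _, h1.1, h2.1, ?_⟩
  rw [hA]
  refine eq_univ_of_forall fun x => ?_
  have hx : Sum.inl x ∈ (A.sum B).closure JM ∪ (A'.sum B').closure JN := by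
    rw [hcl, sum_univ hA hB]
    trivial
  rcases hx with hx | hx
  · exact Or.inl (mem_closure_of_sum hx)
  · exact Or.inr (mem_closure_of_sum hx)

end Vale.Agent.P068.H476
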